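import Vale.Agent.P141.H571.Top
import Vale.Agent.P141.H927.Gen2
import Vale.Agent.P141.H490.CenM

/-!
# P141: the final statement from CE with an active set

`H927.GenOut2 → H501.CFOut → H501.CEOut → H490.FinalStmt`.

* `final_of_cf`: from the generic uniformity of one alive cell;
* `final_of_gen2`: from both kinds of generic atoms.
-/

namespace Vale.Agent.P141.H571

open Vale.Agent.P141

theorem final_of_cf (h : H501.CFOut) : H490.FinalStmt :=
  final_of_ceOut (H501.ceOut_of_cf h)

theorem final_of_gen2 (h : H927.GenOut2) : H490.FinalStmt :=
  final_of_cf (H927.cfOut_of_gen2 h)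

end Vale.Agent.P141.H571
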