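import Vale.Agent.P141.H588G.ChgW

/-!
# The changes of the plane functional, with one family of masked columns

As `H588G.gapSum`, with one more family of changes `Q' → Q''` (a mask on the middle variable of `Q`).
The own energies of the masked squares are paid by the cap `gB`, the mixed term by a charge `X`:
the gains of all scales are at most `146 √(gA gB cP (cP + cC)) 8 ^ N + X`.

* `mask_charge` : the mixed charge of one square, `P Q - P (D Q D)`, is at most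
  `2 (|HPH|² |P|² |HQH|² |Q|²) ^ (1 / 4)`, where `D = 1 - H`;
* `gapSumC` : the sum over `x₀`;
* `colX` : the mixed charges of all scales from four sums over the affected boxes.
-/

namespace Vale.Agent.P141.H571

open Finset Matrix Vale.Agent.P141.PL Vale.Agent.P141.PL.H103 Vale.Agent.P141.H103
open Vale.Agent.P141.H588G

noncomputable section

open scoped Classical

/-! ### One square -/

section one

variable {ι : Type*} [Fintype ι]

/-- the indicator of a set of indices as a diagonal matrix -/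
def dg (H : ι → Prop) : Matrix ι ι ℝ := Matrix.diagonal fun i => if H i then 1 else 0

theorem dg_mul (H : ι → Prop) : dg H * dg H = dg H := by
  unfold dg
  rw [Matrix.diagonal_mul_diagonal]
  congr 1
  funext i
  split_ifs <;> simp

omit [Fintype ι] in
theorem dg_tr (H : ι → Prop) : (dg H)ᵀ = dg H := Matrix.diagonal_transpose _

omit [Fintype ι] in
theorem dg_not (H : ι → Prop) : dg (fun i => ¬ H i) = 1 - dg H := by
  ext i j
  unfold dg
  rw [Matrix.sub_apply, Matrix.diagonal_apply, Matrix.diagonal_apply, Matrix.one_apply]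
  rcases eq_or_ne i j with rfl | h
  · by_cases h' : H i <;> simp [h']
  · simp [h]

theorem trace_sq_eq {m : Type*} [Fintype m] (X : Matrix m ι ℝ) :
    (Xᵀ * X).trace = ∑ p : ι × m, X p.2 p.1 ^ 2 := by
  rw [Fintype.sum_prod_type]
  simp only [Matrix.trace, Matrix.diag, Matrix.mul_apply, Matrix.transpose_apply, sq]

/-- Cauchy-Schwarz for traces -/
theorem trace_cs {m : Type*} [Fintype m] (X Y : Matrix m ι ℝ) :
    (Xᵀ * Y).trace ≤ √(Xᵀ * X).trace * √(Yᵀ * Y).trace := by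
  rw [← Real.sqrt_mul (by rw [trace_sq_eq]; positivity)]
  refine Real.le_sqrt_of_sq_le ?_
  rw [trace_sq_eq, trace_sq_eq]
  have e : (Xᵀ * Y).trace = ∑ p : ι × m, X p.2 p.1 * Y p.2 p.1 := by
    rw [Fintype.sum_prod_type]
    simp only [Matrix.trace, Matrix.diag, Matrix.mul_apply, Matrix.transpose_apply]
  rw [e]
  exact Finset.sum_mul_sq_le_sq_mul_sq _ _ _

theorem trace_sq_nn {m : Type*} [Fintype m] (X : Matrix m ι ℝ) : 0 ≤ (Xᵀ * X).trace := by
  rw [trace_sq_eq]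
  positivity

/-- the rows of a set of indices in a positive matrix -/
theorem rows_le {P : Matrix ι ι ℝ} (hP : P.PosSemidef) (H : ι → Prop) :
    ((dg H * P)ᵀ * (dg H * P)).trace ≤ √(S2 (dg H * P * dg H)) * √(S2 P) := by
  obtain ⟨B, hB, rfl⟩ := P075.exists_sq hP
  have hB' : Bᵀ = B := P075.psd_isSymm hB
  have h1 : ((dg H * (B * B))ᵀ * (dg H * (B * B))).trace =
      ((B * dg H * B)ᵀ * (B * B)).trace := by
    simp only [Matrix.transpose_mul, dg_tr, hB']
    calc (B * B * dg H * (dg H * (B * B))).trace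
        = (B * (B * (dg H * dg H) * (B * B))).trace := by simp only [Matrix.mul_assoc]
      _ = (B * (B * dg H * (B * B))).trace := by rw [dg_mul]
      _ = ((B * dg H * (B * B)) * B).trace := trace_mul_comm _ _
      _ = _ := by simp only [Matrix.mul_assoc]
  have h2 : ((B * dg H * B)ᵀ * (B * dg H * B)).trace = S2 (dg H * (B * B) * dg H) := by
    unfold S2
    simp only [Matrix.transpose_mul, dg_tr, hB']
    calc (B * (dg H * B) * (B * dg H * B)).trace
        = (B * (dg H * B * (B * dg H * B))).trace := by simp only [Matrix.mul_assoc]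
      _ = (dg H * B * (B * dg H * B) * B).trace := trace_mul_comm _ _
      _ = ((dg H * dg H) * (B * B * dg H * (B * B))).trace := by
        rw [dg_mul]
        simp only [Matrix.mul_assoc]
      _ = (dg H * (dg H * (B * B) * dg H * (B * B))).trace := by simp only [Matrix.mul_assoc]
      _ = (dg H * (B * B) * dg H * (B * B) * dg H).trace := trace_mul_comm _ _
      _ = (dg H * (B * B) * (dg H * dg H) * (B * B) * dg H).trace := by rw [dg_mul]
      _ = _ := by simp only [Matrix.mul_assoc]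
  have h3 : ((B * B)ᵀ * (B * B)).trace = S2 (B * B) := by
    unfold S2
    simp only [Matrix.transpose_mul, hB']
  rw [h1, ← h2, ← h3]
  exact trace_cs _ _

/-- **the mixed charge of one square** -/
theorem mask_charge {P Q : Matrix ι ι ℝ} (hP : P.PosSemidef) (hQ : Q.PosSemidef) (H : ι → Prop) :
    (P * Q).trace - (P * (dg (fun i => ¬ H i) * Q * dg fun i => ¬ H i)).trace ≤
      2 * (√√(S2 (dg H * P * dg H) * S2 P) * √√(S2 (dg H * Q * dg H) * S2 Q)) := by
  have hPt := psd_tr hP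
  have hQt := psd_tr hQ
  rw [dg_not]
  have e1 : (P * ((1 - dg H) * Q * (1 - dg H))).trace =
      (P * Q).trace - (P * (dg H * Q)).trace - (P * (Q * dg H)).trace +
        (P * (dg H * Q * dg H)).trace := by
    simp only [Matrix.sub_mul, Matrix.mul_sub, Matrix.one_mul, Matrix.mul_one, trace_sub]
    ring
  have e2 : (P * (Q * dg H)).trace = (P * (dg H * Q)).trace := by
    rw [← trace_transpose]
    simp only [Matrix.transpose_mul, dg_tr, hPt, hQt]
    rw [trace_mul_comm]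
  have e3 : (P * (dg H * Q)).trace = ((dg H * P)ᵀ * (dg H * Q)).trace := by
    simp only [Matrix.transpose_mul, dg_tr, hPt]
    rw [show P * dg H * (dg H * Q) = P * (dg H * dg H * Q) by simp only [Matrix.mul_assoc], dg_mul]
  have h1 : 0 ≤ (P * (dg H * Q * dg H)).trace := by
    refine P075.trace_mul_nonneg hP ?_
    have h := hQ.mul_mul_conjTranspose_same (dg H)
    rwa [Matrix.conjTranspose_eq_transpose_of_trivial, dg_tr] at h
  have h2 := trace_cs (dg H * P) (dg H * Q)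
  have h3 := Real.sqrt_le_sqrt (rows_le hP H)
  have h4 := Real.sqrt_le_sqrt (rows_le hQ H)
  have s1 : 0 ≤ S2 (dg H * P * dg H) := S2_nonneg (by
    simp only [Matrix.transpose_mul, dg_tr, hPt, Matrix.mul_assoc])
  have s2 : 0 ≤ S2 (dg H * Q * dg H) := S2_nonneg (by
    simp only [Matrix.transpose_mul, dg_tr, hQt, Matrix.mul_assoc])
  rw [← Real.sqrt_mul s1] at h3
  rw [← Real.sqrt_mul s2] at h4
  have h5 := mul_le_mul h3 h4 (Real.sqrt_nonneg _) (Real.sqrt_nonneg _)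
  rw [e1, e2, e3]
  linarith

/-- the entries of a masked matrix -/
theorem dg_conj (Q : Matrix ι ι ℝ) (H : ι → Prop) (i j : ι) :
    (dg H * Q * dg H) i j = if H i ∧ H j then Q i j else 0 := by
  unfold dg
  rw [Matrix.mul_diagonal, Matrix.diagonal_mul]
  by_cases h1 : H i <;> by_cases h2 : H j <;> simp [h1, h2]

/-- the mask decreases the energy -/
theorem S2_mask_le {Q : Matrix ι ι ℝ} (hQ : Q.PosSemidef) (H : ι → Prop) :
    S2 (dg H * Q * dg H) ≤ S2 Q := by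
  have hQt := psd_tr hQ
  have e1 : S2 (dg H * Q * dg H) = ((dg H * Q * dg H)ᵀ * (dg H * Q * dg H)).trace := by
    unfold S2
    congr 2
    simp only [Matrix.transpose_mul, dg_tr, hQt, Matrix.mul_assoc]
  have e2 : S2 Q = (Qᵀ * Q).trace := by
    unfold S2
    rw [hQt]
  rw [e1, e2, trace_sq_eq, trace_sq_eq]
  refine sum_le_sum fun p _ => ?_
  have : (dg H * Q * dg H) p.2 p.1 = (if H p.2 then 1 else 0) * Q p.2 p.1 *
      (if H p.1 then 1 else 0) := by
    unfold dg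
    rw [Matrix.mul_diagonal, Matrix.diagonal_mul]
  rw [this]
  have := sq_nonneg (Q p.2 p.1)
  split_ifs <;> simp [this]

end one

/-! ### The functional -/

/-- the mixed charge of one scale at one `x₀` -/
def mC (N : ℕ) (R S T : ℤ) (k : ℕ) (c : ℤ) (q : ℤ → ℤ → Prop) (t t' : ℤ → ℤ → ℤ → ℝ) : ℝ :=
  4 ^ k * ∑ m ∈ iv (N - k) S, ∑ n ∈ iv (N - k) R,
    (if c - m - n ∈ iv (N - k) T ∧ q (c - m - n) m then
      t n (c - m - n) m - t' n (c - m - n) m else 0)

section fnl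

variable {ι : Type*} [Fintype ι]

/-- the mixed term under a mask -/
theorem MW_mask {N k : ℕ} {R S T c : ℤ} {p u u' : ℤ → ℤ → Matrix ι ι ℝ} {q : ℤ → ℤ → Prop}
    (ag : ∀ n ∈ iv (N - k) T, ∀ m ∈ iv (N - k) S, ¬ q n m → u' n m = u n m) :
    MW N R S T k c p u' = MW N R S T k c p u + mC N R S T k c q
      (fun n n' m => (p n m * u' n' m).trace) (fun n n' m => (p n m * u n' m).trace) := by
  unfold MW mC
  rw [← mul_add, ← sum_add_distrib]
  congr 1
  refine sum_congr rfl fun m hm => ?_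
  rw [← sum_add_distrib]
  refine sum_congr rfl fun n hn => ?_
  by_cases hc : c - m - n ∈ iv (N - k) T
  · by_cases hq : q (c - m - n) m
    · rw [if_pos hc, if_pos hc, if_pos ⟨hc, hq⟩]
      ring
    · rw [if_pos hc, if_pos hc, if_neg fun h => hq h.2, ag _ hc m hm hq, add_zero]
  · rw [if_neg hc, if_neg hc, if_neg fun h => hc h.1, add_zero]

/-- **The change of the whole functional, with a mask.** -/
theorem total_mask {N k : ℕ} (hk : k ≤ N) {R S T c : ℤ}
    {P P' Q Q' Q'' : ℕ → ℤ → ℤ → Matrix ι ι ℝ}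
    (oP : OutM N k P) (oP' : OutM N k P') (oQ : OutM N k Q) (oQ' : OutM N k Q')
    (oQ'' : OutM N k Q'')
    (pP : ∀ a n m, (P a n m).PosSemidef) (pP' : ∀ a n m, (P' a n m).PosSemidef)
    (pQ : ∀ a n m, (Q a n m).PosSemidef) (pQ' : ∀ a n m, (Q' a n m).PosSemidef)
    (pQ'' : ∀ a n m, (Q'' a n m).PosSemidef) {q q' q'' : ℤ → ℤ → Prop}
    (ag : ∀ n ∈ iv (N - k) R, ∀ m ∈ iv (N - k) S, ¬ q n m → P' k n m = P k n m)
    (ag' : ∀ n ∈ iv (N - k) T, ∀ m ∈ iv (N - k) S, ¬ q' n m → Q'' k n m = Q k n m)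
    (ag'' : ∀ n ∈ iv (N - k) T, ∀ m ∈ iv (N - k) S, ¬ q'' n m → Q' k n m = Q'' k n m) :
    MW N R S T k c (P' k) (Q' k) + 9 * (WW N k (EW N R S k P') + WW N k (EW N T S k Q')) ≤
    MW N R S T k c (P k) (Q k) + 9 * (WW N k (EW N R S k P) + WW N k (EW N T S k Q)) +
      (xA N R S T k c q (fun n m => S2 (P' k n m)) (fun n m => S2 (Q'' k n m)) +
       xA N T S R k c q' (fun n m => S2 (Q'' k n m)) (fun n m => S2 (P' k n m)) +
       xA N T S R k c q'' (fun n m => S2 (Q' k n m)) (fun _ _ => 0) +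
       mC N R S T k c q'' (fun n n' m => (P' k n m * Q' k n' m).trace)
        (fun n n' m => (P' k n m * Q'' k n' m).trace)) := by
  have h1 := total_ch hk oP oP' oQ oQ'' pP pP' pQ pQ'' (c := c) ag ag'
  have h2 := WW_ch hk oQ'' oQ' pQ'' pQ' ag''
  have h3 := MW_mask (N := N) (k := k) (R := R) (S := S) (T := T) (c := c) (p := P' k)
    (u := Q'' k) (u' := Q' k) ag''
  have h4 : 9 * (4 ^ k * ∑ m ∈ iv (N - k) S, ∑ n ∈ iv (N - k) T, (if q'' n m then
      ∑ r ∈ range (N - k + 1), (3 / 4) ^ r *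
        (avS (fun n m => S2 (Q' k n m)) r (ix r n) m + S2 (Q' k n m)) else 0)) ≤
      xA N T S R k c q'' (fun n m => S2 (Q' k n m)) (fun _ _ => 0) := by
    unfold xA
    rw [mul_left_comm]
    refine mul_le_mul_of_nonneg_left ?_ (by positivity)
    rw [Finset.mul_sum]
    refine sum_le_sum fun m _ => ?_
    rw [Finset.mul_sum]
    refine sum_le_sum fun n _ => ?_
    have := S2_nonneg (psd_tr (pQ' k n m))
    split_ifs <;> linarith
  linarith

end fnl

/-- **The gains of all scales, summed over `x₀`, with a mask.** -/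
theorem gapSumC' {N : ℕ} {R S T t₀ : ℤ} {c : ℤ → ℕ → ℤ} (hc : ∀ x, H588.Pl (c x))
    (hcl : ∀ k x y, ix k x = ix k y → c x k = c y k)
    {ι : ℕ → Type*} [∀ k, Fintype (ι k)]
    {P P' Q Q' Q'' : ℤ → ∀ k, ℕ → ℤ → ℤ → Matrix (ι k) (ι k) ℝ} {g : ℤ → ℕ → ℤ → ℤ → ℤ → ℝ}
    {qA qB qC : ℕ → ℤ → ℤ → ℤ → Prop}
    (oP : ∀ x k, k ≤ N → OutM N k (P x k)) (oQ : ∀ x k, k ≤ N → OutM N k (Q x k))
    (oP' : ∀ x k, k < N → OutM N k (P' x k)) (oQ' : ∀ x k, k < N → OutM N k (Q' x k))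
    (oQ'' : ∀ x k, k < N → OutM N k (Q'' x k))
    (pP : ∀ x k a n m, (P x k a n m).PosSemidef) (pQ : ∀ x k a n m, (Q x k a n m).PosSemidef)
    (pP' : ∀ x k a n m, (P' x k a n m).PosSemidef) (pQ' : ∀ x k a n m, (Q' x k a n m).PosSemidef)
    (pQ'' : ∀ x k a n m, (Q'' x k a n m).PosSemidef)
    (agP : ∀ x k, k < N → ∀ n ∈ iv (N - k) R, ∀ m ∈ iv (N - k) S, ¬ qA k (ix k x) n m →
      P' x k k n m = P x k k n m)
    (agQ : ∀ x k, k < N → ∀ n ∈ iv (N - k) T, ∀ m ∈ iv (N - k) S, ¬ qB k (ix k x) n m →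
      Q'' x k k n m = Q x k k n m)
    (agC : ∀ x k, k < N → ∀ n ∈ iv (N - k) T, ∀ m ∈ iv (N - k) S, ¬ qC k (ix k x) n m →
      Q' x k k n m = Q'' x k k n m)
    (mid : ∀ x k, k < N → ∀ n n' m,
      (P x (k + 1) (k + 1) n m * Q x (k + 1) (k + 1) n' m).trace + g x k n n' m
      ≤ (1 / 2) * ((P' x k (k + 1) n (2 * m) * Q' x k (k + 1) n' (2 * m)).trace
        + (P' x k (k + 1) n (2 * m + 1) * Q' x k (k + 1) n' (2 * m + 1)).trace))
    (hE : ∀ x k, k < N → ∀ a, k + 1 ≤ a → a ≤ N →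
      EW N R S (k + 1) (P x (k + 1)) a ≤ EW N R S k (P' x k) a)
    (hF : ∀ x k, k < N → ∀ a, k + 1 ≤ a → a ≤ N →
      EW N T S (k + 1) (Q x (k + 1)) a ≤ EW N T S k (Q' x k) a)
    (zP : ∀ x n m, P x 0 0 n m = 0) (zQ : ∀ x n m, Q x 0 0 n m = 0)
    {gA gB cP cC X : ℝ} (hA : 0 ≤ gA) (hB : 0 ≤ gB)
    (capA : ∀ k < N, ∀ i ∈ iv (N - k) t₀, ∀ n ∈ iv (N - k) R, ∀ m ∈ iv (N - k) S,
      ∑ x ∈ iv k i, S2 (P' x k k n m) ≤ gA * 2 ^ k)
    (capB : ∀ k < N, ∀ i ∈ iv (N - k) t₀, ∀ n ∈ iv (N - k) T, ∀ m ∈ iv (N - k) S,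
      ∑ x ∈ iv k i, S2 (Q' x k k n m) ≤ gB * 2 ^ k)
    (capB' : ∀ k < N, ∀ i ∈ iv (N - k) t₀, ∀ n ∈ iv (N - k) T, ∀ m ∈ iv (N - k) S,
      ∑ x ∈ iv k i, S2 (Q'' x k k n m) ≤ gB * 2 ^ k)
    (packA : ∀ x ∈ iv N t₀, ∑ k ∈ range N, cnt N R S k (qA k (ix k x)) ≤ cP * 4 ^ N)
    (packB : ∀ x ∈ iv N t₀, ∑ k ∈ range N, cnt N T S k (qB k (ix k x)) ≤ cP * 4 ^ N)
    (packC : ∀ x ∈ iv N t₀, ∑ k ∈ range N, cnt N T S k (qC k (ix k x)) ≤ cC * 4 ^ N)
    (hX : ∑ x ∈ iv N t₀, ∑ k ∈ range N, mC N R S T k (c x k) (qC k (ix k x))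
      (fun n n' m => (P' x k k n m * Q' x k k n' m).trace)
      (fun n n' m => (P' x k k n m * Q'' x k k n' m).trace) ≤ X) :
    ∑ x ∈ iv N t₀, ∑ k ∈ range N, GW N R S T (k + 1) (c x (k + 1)) (g x k) ≤
      73 * (gA * cP + gB * (cP + cC)) * 8 ^ N + X := by
  have h1 : ∀ x, ∑ k ∈ range N, GW N R S T (k + 1) (c x (k + 1)) (g x k) ≤
      ∑ k ∈ range N, (xA N R S T k (c x k) (qA k (ix k x)) (fun n m => S2 (P' x k k n m))
        (fun n m => S2 (Q'' x k k n m)) + xA N T S R k (c x k) (qB k (ix k x))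
        (fun n m => S2 (Q'' x k k n m)) (fun n m => S2 (P' x k k n m)) +
        xA N T S R k (c x k) (qC k (ix k x)) (fun n m => S2 (Q' x k k n m)) (fun _ _ => 0) +
        mC N R S T k (c x k) (qC k (ix k x)) (fun n n' m => (P' x k k n m * Q' x k k n' m).trace)
        (fun n n' m => (P' x k k n m * Q'' x k k n' m).trace)) := by
    intro x
    have h := totalW (Nat.zero_le N) (hc x) (P := P x) (P' := P' x) (Q := Q x) (Q' := Q' x)
      (R := R) (S := S) (T := T) (g := g x) (dE := fun _ _ => 0) (dF := fun _ _ => 0)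
      (x := fun k => (xA N R S T k (c x k) (qA k (ix k x)) (fun n m => S2 (P' x k k n m))
        (fun n m => S2 (Q'' x k k n m)) + xA N T S R k (c x k) (qB k (ix k x))
        (fun n m => S2 (Q'' x k k n m)) (fun n m => S2 (P' x k k n m)) +
        xA N T S R k (c x k) (qC k (ix k x)) (fun n m => S2 (Q' x k k n m)) (fun _ _ => 0) +
        mC N R S T k (c x k) (qC k (ix k x)) (fun n n' m => (P' x k k n m * Q' x k k n' m).trace)
        (fun n n' m => (P' x k k n m * Q'' x k k n' m).trace)))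
      (fun k _ h => oP x k h) (fun k _ h => oQ x k h) (fun k _ h => oP' x k h)
      (fun k _ h => oQ' x k h) (fun k a n m => psd_tr (pP x k a n m))
      (fun k a n m => psd_tr (pQ x k a n m)) (fun k a n m => psd_tr (pP' x k a n m))
      (fun k a n m => psd_tr (pQ' x k a n m)) (fun k _ h => mid x k h)
      (fun k _ h a h1 h2 => by rw [add_zero]; exact hE x k h a h1 h2)
      (fun k _ h a h1 h2 => by rw [add_zero]; exact hF x k h a h1 h2)
      (fun k _ h => total_mask h.le (oP x k h.le) (oP' x k h) (oQ x k h.le) (oQ' x k h)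
        (oQ'' x k h) (pP x k) (pP' x k) (pQ x k) (pQ' x k) (pQ'' x k) (agP x k h) (agQ x k h)
        (agC x k h))
    have z1 : EW N R S 0 (P x 0) 0 = 0 := by
      unfold EW
      simp [zP]
    have z2 : EW N T S 0 (Q x 0) 0 = 0 := by
      unfold EW
      simp [zQ]
    rw [z1, z2] at h
    simp only [WW, mul_zero, sum_const_zero, add_zero, zero_add] at h
    rwa [← range_eq_Ico] at h
  refine (sum_le_sum fun x _ => h1 x).trans ?_
  simp only [sum_add_distrib]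
  have q1 := sum_xA (T := T) hcl (s := fun x k n m => S2 (P' x k k n m))
    (t := fun x k n m => S2 (Q'' x k k n m)) hA hB capA capB' packA
  have q2 := sum_xA (T := R) hcl (s := fun x k n m => S2 (Q'' x k k n m))
    (t := fun x k n m => S2 (P' x k k n m)) hB hA capB' capA packB
  have q3 := sum_xA (T := R) (gB := 0) hcl (s := fun x k n m => S2 (Q' x k k n m))
    (t := fun _ _ _ _ => 0) hB le_rfl capB (fun k _ i _ n _ m _ => by simp) packC
  have p8 : (0 : ℝ) ≤ 8 ^ N := by positivity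
  have c0 : 0 ≤ cC * 8 ^ N := by
    have e : ∀ x, 0 ≤ ∑ k ∈ range N, cnt N T S k (qC k (ix k x)) := fun x => by
      refine sum_nonneg fun k _ => ?_
      unfold cnt
      refine mul_nonneg (by positivity) (sum_nonneg fun m _ => sum_nonneg fun n _ => ?_)
      split_ifs <;> norm_num
    have hx : 2 ^ N * t₀ ∈ iv N t₀ := by
      rw [mem_iv]
      unfold ix
      exact Int.mul_ediv_cancel_left _ (by positivity)
    have h0 := (e _).trans (packC _ hx)
    have : 0 ≤ cC := nonneg_of_mul_nonneg_left h0 (by positivity)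
    positivity
  refine (add_le_add (add_le_add (add_le_add q1 q2) q3) hX).trans ?_
  nlinarith [mul_nonneg hB c0]

/-- **The gains of all scales, summed over `x₀`, with a mask**, product form. -/
theorem gapSumC {N : ℕ} {R S T t₀ : ℤ} {c : ℤ → ℕ → ℤ} (hc : ∀ x, H588.Pl (c x))
    (hcl : ∀ k x y, ix k x = ix k y → c x k = c y k)
    {ι : ℕ → Type*} [∀ k, Fintype (ι k)]
    {P P' Q Q' Q'' : ℤ → ∀ k, ℕ → ℤ → ℤ → Matrix (ι k) (ι k) ℝ} {g : ℤ → ℕ → ℤ → ℤ → ℤ → ℝ}
    {qA qB qC : ℕ → ℤ → ℤ → ℤ → Prop}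
    (oP : ∀ x k, k ≤ N → OutM N k (P x k)) (oQ : ∀ x k, k ≤ N → OutM N k (Q x k))
    (oP' : ∀ x k, k < N → OutM N k (P' x k)) (oQ' : ∀ x k, k < N → OutM N k (Q' x k))
    (oQ'' : ∀ x k, k < N → OutM N k (Q'' x k))
    (pP : ∀ x k a n m, (P x k a n m).PosSemidef) (pQ : ∀ x k a n m, (Q x k a n m).PosSemidef)
    (pP' : ∀ x k a n m, (P' x k a n m).PosSemidef) (pQ' : ∀ x k a n m, (Q' x k a n m).PosSemidef)
    (pQ'' : ∀ x k a n m, (Q'' x k a n m).PosSemidef)
    (agP : ∀ x k, k < N → ∀ n ∈ iv (N - k) R, ∀ m ∈ iv (N - k) S, ¬ qA k (ix k x) n m →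
      P' x k k n m = P x k k n m)
    (agQ : ∀ x k, k < N → ∀ n ∈ iv (N - k) T, ∀ m ∈ iv (N - k) S, ¬ qB k (ix k x) n m →
      Q'' x k k n m = Q x k k n m)
    (agC : ∀ x k, k < N → ∀ n ∈ iv (N - k) T, ∀ m ∈ iv (N - k) S, ¬ qC k (ix k x) n m →
      Q' x k k n m = Q'' x k k n m)
    (mid : ∀ x k, k < N → ∀ n n' m,
      (P x (k + 1) (k + 1) n m * Q x (k + 1) (k + 1) n' m).trace + g x k n n' m
      ≤ (1 / 2) * ((P' x k (k + 1) n (2 * m) * Q' x k (k + 1) n' (2 * m)).trace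
        + (P' x k (k + 1) n (2 * m + 1) * Q' x k (k + 1) n' (2 * m + 1)).trace))
    (hE : ∀ x k, k < N → ∀ a, k + 1 ≤ a → a ≤ N →
      EW N R S (k + 1) (P x (k + 1)) a ≤ EW N R S k (P' x k) a)
    (hF : ∀ x k, k < N → ∀ a, k + 1 ≤ a → a ≤ N →
      EW N T S (k + 1) (Q x (k + 1)) a ≤ EW N T S k (Q' x k) a)
    (zP : ∀ x n m, P x 0 0 n m = 0) (zQ : ∀ x n m, Q x 0 0 n m = 0)
    {gA gB cP cC X : ℝ} (hA : 0 < gA) (hB : 0 < gB) (hcP : 0 < cP) (hcC : 0 ≤ cC)
    (capA : ∀ k < N, ∀ i ∈ iv (N - k) t₀, ∀ n ∈ iv (N - k) R, ∀ m ∈ iv (N - k) S,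
      ∑ x ∈ iv k i, S2 (P' x k k n m) ≤ gA * 2 ^ k)
    (capB : ∀ k < N, ∀ i ∈ iv (N - k) t₀, ∀ n ∈ iv (N - k) T, ∀ m ∈ iv (N - k) S,
      ∑ x ∈ iv k i, S2 (Q' x k k n m) ≤ gB * 2 ^ k)
    (capB' : ∀ k < N, ∀ i ∈ iv (N - k) t₀, ∀ n ∈ iv (N - k) T, ∀ m ∈ iv (N - k) S,
      ∑ x ∈ iv k i, S2 (Q'' x k k n m) ≤ gB * 2 ^ k)
    (packA : ∀ x ∈ iv N t₀, ∑ k ∈ range N, cnt N R S k (qA k (ix k x)) ≤ cP * 4 ^ N)
    (packB : ∀ x ∈ iv N t₀, ∑ k ∈ range N, cnt N T S k (qB k (ix k x)) ≤ cP * 4 ^ N)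
    (packC : ∀ x ∈ iv N t₀, ∑ k ∈ range N, cnt N T S k (qC k (ix k x)) ≤ cC * 4 ^ N)
    (hX : ∑ x ∈ iv N t₀, ∑ k ∈ range N, mC N R S T k (c x k) (qC k (ix k x))
      (fun n n' m => (P' x k k n m * Q' x k k n' m).trace)
      (fun n n' m => (P' x k k n m * Q'' x k k n' m).trace) ≤ X) :
    ∑ x ∈ iv N t₀, ∑ k ∈ range N, GW N R S T (k + 1) (c x (k + 1)) (g x k) ≤
      146 * √(gA * gB * (cP * (cP + cC))) * 8 ^ N + X := by
  have hcc : 0 < cP + cC := by positivity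
  set w := √(gB * (cP + cC) / (gA * cP)) with hw
  have w0 : 0 < w := Real.sqrt_pos.2 (by positivity)
  set μ := √w with hμ
  have m0 : 0 < μ := Real.sqrt_pos.2 w0
  have hμ2 : μ ^ 2 = w := Real.sq_sqrt w0.le
  have hw2 : w ^ 2 = gB * (cP + cC) / (gA * cP) := Real.sq_sqrt (by positivity)
  have e1 : w * gA * cP = √(gA * gB * (cP * (cP + cC))) := by
    rw [← Real.sqrt_sq (show 0 ≤ w * gA * cP by positivity)]
    congr 1
    rw [mul_pow, mul_pow, hw2]
    field_simp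
  have e2 : w⁻¹ * gB * (cP + cC) = √(gA * gB * (cP * (cP + cC))) := by
    rw [← Real.sqrt_sq (show 0 ≤ w⁻¹ * gB * (cP + cC) by positivity)]
    congr 1
    rw [mul_pow, mul_pow, inv_pow, hw2]
    field_simp
  have h := gapSumC' hc hcl (P := fun x k a n m => μ • P x k a n m)
    (P' := fun x k a n m => μ • P' x k a n m) (Q := fun x k a n m => μ⁻¹ • Q x k a n m)
    (Q' := fun x k a n m => μ⁻¹ • Q' x k a n m) (Q'' := fun x k a n m => μ⁻¹ • Q'' x k a n m)
    (g := g) (qA := qA) (qB := qB) (qC := qC)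
    (R := R) (S := S) (T := T) (t₀ := t₀)
    (fun x k h => (oP x k h).smul μ) (fun x k h => (oQ x k h).smul μ⁻¹)
    (fun x k h => (oP' x k h).smul μ) (fun x k h => (oQ' x k h).smul μ⁻¹)
    (fun x k h => (oQ'' x k h).smul μ⁻¹)
    (fun x k a n m => (pP x k a n m).smul m0.le)
    (fun x k a n m => (pQ x k a n m).smul (inv_nonneg.2 m0.le))
    (fun x k a n m => (pP' x k a n m).smul m0.le)
    (fun x k a n m => (pQ' x k a n m).smul (inv_nonneg.2 m0.le))
    (fun x k a n m => (pQ'' x k a n m).smul (inv_nonneg.2 m0.le))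
    (fun x k h n hn m hm hq => by rw [agP x k h n hn m hm hq])
    (fun x k h n hn m hm hq => by rw [agQ x k h n hn m hm hq])
    (fun x k h n hn m hm hq => by rw [agC x k h n hn m hm hq])
    (fun x k h n n' m => by
      have := mid x k h n n' m
      simp only [Matrix.smul_mul, Matrix.mul_smul, smul_smul, inv_mul_cancel₀ m0.ne', one_smul]
      exact this)
    (fun x k h a h1 h2 => by
      simp only [EW_smul]
      exact mul_le_mul_of_nonneg_left (hE x k h a h1 h2) (sq_nonneg _))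
    (fun x k h a h1 h2 => by
      simp only [EW_smul]
      exact mul_le_mul_of_nonneg_left (hF x k h a h1 h2) (sq_nonneg _))
    (fun x n m => by rw [zP, smul_zero]) (fun x n m => by rw [zQ, smul_zero])
    (gA := w * gA) (gB := w⁻¹ * gB) (cP := cP) (cC := cC) (X := X) (by positivity)
    (by positivity)
    (fun k hk i hi n hn m hm => by
      simp only [S2_smul, ← Finset.mul_sum]
      rw [hμ2, mul_assoc]
      exact mul_le_mul_of_nonneg_left (capA k hk i hi n hn m hm) w0.le)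
    (fun k hk i hi n hn m hm => by
      simp only [S2_smul, ← Finset.mul_sum]
      rw [inv_pow, hμ2, mul_assoc]
      exact mul_le_mul_of_nonneg_left (capB k hk i hi n hn m hm) (inv_nonneg.2 w0.le))
    (fun k hk i hi n hn m hm => by
      simp only [S2_smul, ← Finset.mul_sum]
      rw [inv_pow, hμ2, mul_assoc]
      exact mul_le_mul_of_nonneg_left (capB' k hk i hi n hn m hm) (inv_nonneg.2 w0.le))
    packA packB packC (by
      simp only [Matrix.smul_mul, Matrix.mul_smul, smul_smul, inv_mul_cancel₀ m0.ne', one_smul]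
      exact hX)
  refine h.trans (le_of_eq ?_)
  rw [e1, e2]
  ring

/-! ### The mixed charges -/

/-- the sum over the boxes of all scales -/
def LL (N : ℕ) (S T t₀ : ℤ) (f : ℤ → ℕ → ℤ → ℤ → ℝ) : ℝ :=
  ∑ x ∈ iv N t₀, ∑ k ∈ range N, 4 ^ k * ∑ m ∈ iv (N - k) S, ∑ n ∈ iv (N - k) T, f x k n m

theorem LL_eq (N : ℕ) (S T t₀ : ℤ) (f : ℤ → ℕ → ℤ → ℤ → ℝ) :
    LL N S T t₀ f = ∑ x ∈ iv N t₀, ∑ k ∈ range N, ∑ m ∈ iv (N - k) S, ∑ n ∈ iv (N - k) T,
      4 ^ k * f x k n m := by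
  unfold LL
  simp only [Finset.mul_sum]

theorem LL_mono {N : ℕ} {S T t₀ : ℤ} {f g : ℤ → ℕ → ℤ → ℤ → ℝ}
    (h : ∀ x ∈ iv N t₀, ∀ k < N, ∀ n ∈ iv (N - k) T, ∀ m ∈ iv (N - k) S,
      f x k n m ≤ g x k n m) : LL N S T t₀ f ≤ LL N S T t₀ g := by
  unfold LL
  refine sum_le_sum fun x hx => sum_le_sum fun k hk => ?_
  have hk := mem_range.1 hk
  exact mul_le_mul_of_nonneg_left
    (sum_le_sum fun m hm => sum_le_sum fun n hn => h x hx k hk n hn m hm) (by positivity)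

theorem LL_nonneg {N : ℕ} {S T t₀ : ℤ} {f : ℤ → ℕ → ℤ → ℤ → ℝ} (h : ∀ x k n m, 0 ≤ f x k n m) :
    0 ≤ LL N S T t₀ f := by
  unfold LL
  exact sum_nonneg fun x _ => sum_nonneg fun k _ => mul_nonneg (by positivity)
    (sum_nonneg fun m _ => sum_nonneg fun n _ => h x k n m)

/-- Cauchy-Schwarz for the sum over the boxes -/
theorem LL_cs {N : ℕ} {S T t₀ : ℤ} {f g : ℤ → ℕ → ℤ → ℤ → ℝ} (hf : ∀ x k n m, 0 ≤ f x k n m)
    (hg : ∀ x k n m, 0 ≤ g x k n m) :
    LL N S T t₀ (fun x k n m => √(f x k n m) * √(g x k n m)) ≤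
      √(LL N S T t₀ f) * √(LL N S T t₀ g) := by
  rw [LL_eq, LL_eq, LL_eq]
  have p : ∀ (h : ℤ → ℕ → ℤ → ℤ → ℝ), (∀ x k n m, 0 ≤ h x k n m) → ∀ x k n m,
      0 ≤ 4 ^ k * h x k n m := fun h hh x k n m => mul_nonneg (by positivity) (hh x k n m)
  have e : ∀ x k n m, 4 ^ k * (√(f x k n m) * √(g x k n m)) =
      √(4 ^ k * f x k n m) * √(4 ^ k * g x k n m) := by
    intro x k n m
    rw [Real.sqrt_mul (by positivity), Real.sqrt_mul (by positivity)]
    have h4 : √((4 : ℝ) ^ k) * √((4 : ℝ) ^ k) = 4 ^ k := Real.mul_self_sqrt (by positivity)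
    calc _ = (√((4 : ℝ) ^ k) * √((4 : ℝ) ^ k)) * (√(f x k n m) * √(g x k n m)) := by rw [h4]
      _ = _ := by ring
  simp only [e]
  refine (sum_le_sum fun x _ => (sum_le_sum fun k _ => (sum_le_sum fun m _ =>
    Real.sum_sqrt_mul_sqrt_le _ (fun n => p f hf x k n m) (fun n => p g hg x k n m)).trans
    (Real.sum_sqrt_mul_sqrt_le _ (fun m => sum_nonneg fun n _ => p f hf x k n m)
      (fun m => sum_nonneg fun n _ => p g hg x k n m))).trans
    (Real.sum_sqrt_mul_sqrt_le _ (fun k => sum_nonneg fun m _ => sum_nonneg fun n _ =>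
      p f hf x k n m) (fun k => sum_nonneg fun m _ => sum_nonneg fun n _ =>
      p g hg x k n m))).trans
    (Real.sum_sqrt_mul_sqrt_le _ (fun x => sum_nonneg fun k _ => sum_nonneg fun m _ =>
      sum_nonneg fun n _ => p f hf x k n m) (fun x => sum_nonneg fun k _ => sum_nonneg fun m _ =>
      sum_nonneg fun n _ => p g hg x k n m))

/-- the same with four factors -/
theorem LL_cs4 {N : ℕ} {S T t₀ : ℤ} {f₁ f₂ f₃ f₄ : ℤ → ℕ → ℤ → ℤ → ℝ}
    (h₁ : ∀ x k n m, 0 ≤ f₁ x k n m) (h₂ : ∀ x k n m, 0 ≤ f₂ x k n m)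
    (h₃ : ∀ x k n m, 0 ≤ f₃ x k n m) (h₄ : ∀ x k n m, 0 ≤ f₄ x k n m) :
    LL N S T t₀ (fun x k n m => √√(f₁ x k n m * f₂ x k n m) * √√(f₃ x k n m * f₄ x k n m)) ≤
      √√(LL N S T t₀ f₁ * LL N S T t₀ f₂) * √√(LL N S T t₀ f₃ * LL N S T t₀ f₄) := by
  refine (LL_cs (fun x k n m => Real.sqrt_nonneg _) fun x k n m => Real.sqrt_nonneg _).trans ?_
  have key : ∀ {f g : ℤ → ℕ → ℤ → ℤ → ℝ}, (∀ x k n m, 0 ≤ f x k n m) →
      (∀ x k n m, 0 ≤ g x k n m) →
      √(LL N S T t₀ fun x k n m => √(f x k n m * g x k n m)) ≤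
      √√(LL N S T t₀ f * LL N S T t₀ g) := by
    intro f g hf hg
    refine Real.sqrt_le_sqrt ?_
    rw [Real.sqrt_mul (LL_nonneg hf)]
    refine le_trans (le_of_eq ?_) (LL_cs hf hg)
    congr 1
    funext x k n m
    rw [Real.sqrt_mul (hf x k n m)]
  exact mul_le_mul (key h₁ h₂) (key h₃ h₄) (Real.sqrt_nonneg _) (Real.sqrt_nonneg _)

/-- the affected boxes, in the letters of the second matrix -/
def aff (N : ℕ) (R : ℤ) (c : ℤ → ℕ → ℤ) (q : ℕ → ℤ → ℤ → ℤ → Prop)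
    (f : ℤ → ℕ → ℤ → ℤ → ℤ → ℝ) (x : ℤ) (k : ℕ) (n m : ℤ) : ℝ :=
  if q k (ix k x) n m then (if c x k - m - n ∈ iv (N - k) R then f x k (c x k - m - n) n m else 0)
    else 0

theorem aff_nonneg {N : ℕ} {R : ℤ} {c : ℤ → ℕ → ℤ} {q : ℕ → ℤ → ℤ → ℤ → Prop}
    {f : ℤ → ℕ → ℤ → ℤ → ℤ → ℝ} (hf : ∀ x k n n' m, 0 ≤ f x k n n' m) (x : ℤ) (k : ℕ)
    (n m : ℤ) : 0 ≤ aff N R c q f x k n m := by
  unfold aff
  split_ifs
  · exact hf _ _ _ _ _
  · exact le_rfl
  · exact le_rfl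

/-- the mixed charges in the letters of the second matrix -/
theorem mC_le {N : ℕ} {R S T t₀ : ℤ} {c : ℤ → ℕ → ℤ} {q : ℕ → ℤ → ℤ → ℤ → Prop}
    {t t' f : ℤ → ℕ → ℤ → ℤ → ℤ → ℝ} (hf : ∀ x k n n' m, 0 ≤ f x k n n' m)
    (h : ∀ x k, k < N → ∀ n n' m, n ∈ iv (N - k) R → n' ∈ iv (N - k) T → m ∈ iv (N - k) S →
      q k (ix k x) n' m → t x k n n' m - t' x k n n' m ≤ f x k n n' m) :
    ∑ x ∈ iv N t₀, ∑ k ∈ range N, mC N R S T k (c x k) (q k (ix k x)) (t x k) (t' x k) ≤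
      LL N S T t₀ (aff N R c q f) := by
  unfold LL
  refine sum_le_sum fun x _ => sum_le_sum fun k hk => ?_
  have hk := mem_range.1 hk
  unfold mC
  refine mul_le_mul_of_nonneg_left (sum_le_sum fun m hm => ?_) (by positivity)
  refine le_trans ?_ (H588.sum_refl_le (N - k) R T (c x k - m)
    (fun n => aff N R c q f x k n m) fun n => aff_nonneg hf x k n m)
  refine sum_le_sum fun n hn => ?_
  by_cases h1 : c x k - m - n ∈ iv (N - k) T
  · rw [if_pos h1]
    unfold aff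
    have e : c x k - m - (c x k - m - n) = n := by ring
    by_cases h2 : q k (ix k x) (c x k - m - n) m
    · rw [if_pos ⟨h1, h2⟩, if_pos h2, e, if_pos hn]
      exact h x k hk n _ m hn h1 hm h2
    · rw [if_neg fun h => h2 h.2, if_neg h2]
  · rw [if_neg fun h => h1 h.1, if_neg h1]

/-- caps and packing bound the sum over the affected boxes -/
theorem LL_cap {N : ℕ} {S T t₀ : ℤ} {q : ℕ → ℤ → ℤ → ℤ → Prop} {F : ℤ → ℕ → ℤ → ℤ → ℝ}
    {a cC : ℝ} (ha : 0 ≤ a)
    (cap : ∀ k < N, ∀ i ∈ iv (N - k) t₀, ∀ n ∈ iv (N - k) T, ∀ m ∈ iv (N - k) S,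
      ∑ x ∈ iv k i, F x k n m ≤ a * 2 ^ k)
    (pack : ∀ x ∈ iv N t₀, ∑ k ∈ range N, cnt N T S k (q k (ix k x)) ≤ cC * 4 ^ N) :
    LL N S T t₀ (fun x k n m => if q k (ix k x) n m then F x k n m else 0) ≤
      a * cC * 8 ^ N := by
  have h1 : ∀ k ∈ range N, ∑ x ∈ iv N t₀, 4 ^ k * ∑ m ∈ iv (N - k) S, ∑ n ∈ iv (N - k) T,
      (if q k (ix k x) n m then F x k n m else 0) ≤
      ∑ x ∈ iv N t₀, a * cnt N T S k (q k (ix k x)) := by
    intro k hk
    have hk := mem_range.1 hk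
    have e : iv N t₀ = iv (N - k + k) t₀ := by rw [Nat.sub_add_cancel hk.le]
    rw [e, ← sum_iv_iv, ← sum_iv_iv]
    refine sum_le_sum fun i hi => ?_
    have e1 : ∑ x ∈ iv k i, 4 ^ k * ∑ m ∈ iv (N - k) S, ∑ n ∈ iv (N - k) T,
        (if q k (ix k x) n m then F x k n m else 0) =
        4 ^ k * ∑ m ∈ iv (N - k) S, ∑ n ∈ iv (N - k) T,
          (if q k i n m then ∑ x ∈ iv k i, F x k n m else 0) := by
      rw [← Finset.mul_sum, sum_comm]
      congr 1
      refine sum_congr rfl fun m _ => ?_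
      rw [sum_comm]
      refine sum_congr rfl fun n _ => ?_
      by_cases hq : q k i n m
      · rw [if_pos hq]
        refine sum_congr rfl fun x hx => ?_
        rw [mem_iv.1 hx, if_pos hq]
      · rw [if_neg hq]
        refine sum_eq_zero fun x hx => ?_
        rw [mem_iv.1 hx, if_neg hq]
    have e2 : ∑ x ∈ iv k i, a * cnt N T S k (q k (ix k x)) = (a * 2 ^ k) * cnt N T S k (q k i) := by
      rw [sum_congr rfl fun x hx => by rw [mem_iv.1 hx], sum_const, nsmul_eq_mul, card_iv']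
      ring
    rw [e1, e2]
    unfold cnt
    rw [mul_left_comm]
    refine mul_le_mul_of_nonneg_left ?_ (by positivity)
    rw [Finset.mul_sum]
    refine sum_le_sum fun m hm => ?_
    rw [Finset.mul_sum]
    refine sum_le_sum fun n hn => ?_
    split_ifs
    · rw [mul_one]
      exact cap k hk i hi n hn m hm
    · rw [mul_zero]
  unfold LL
  rw [sum_comm]
  refine (sum_le_sum h1).trans ?_
  rw [sum_comm]
  refine (sum_le_sum fun x hx => ?_ : _ ≤ ∑ x ∈ iv N t₀, a * (cC * 4 ^ N)).trans (le_of_eq ?_)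
  · rw [← Finset.mul_sum]
    exact mul_le_mul_of_nonneg_left (pack x hx) ha
  · rw [sum_const, nsmul_eq_mul, card_iv', show (8 : ℝ) = 2 * 4 by norm_num, mul_pow]
    ring

/-- **The mixed charges of all scales**, from the energies of the masked columns. -/
theorem colX {N : ℕ} {R S T t₀ : ℤ} {c : ℤ → ℕ → ℤ}
    (hcl : ∀ k x y, ix k x = ix k y → c x k = c y k)
    {ι : ℕ → Type*} [∀ k, Fintype (ι k)]
    {P' Q' Q'' : ℤ → ∀ k, ℕ → ℤ → ℤ → Matrix (ι k) (ι k) ℝ}
    {qC : ℕ → ℤ → ℤ → ℤ → Prop} {H : ∀ k, ℤ → ℤ → ℤ → ι k → Prop}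
    (pP' : ∀ x k a n m, (P' x k a n m).PosSemidef) (pQ' : ∀ x k a n m, (Q' x k a n m).PosSemidef)
    (mask : ∀ x k, k < N → ∀ n ∈ iv (N - k) T, ∀ m ∈ iv (N - k) S, qC k (ix k x) n m →
      Q'' x k k n m = dg (fun j => ¬ H k (ix k x) n m j) * Q' x k k n m *
        dg (fun j => ¬ H k (ix k x) n m j))
    {gA gB cC aH bH : ℝ} (hA : 0 ≤ gA) (hB : 0 ≤ gB) (hcC : 0 ≤ cC) (haH : 0 ≤ aH) (hbH : 0 ≤ bH)
    (capA : ∀ k < N, ∀ i ∈ iv (N - k) t₀, ∀ n ∈ iv (N - k) R, ∀ m ∈ iv (N - k) S,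
      ∑ x ∈ iv k i, S2 (P' x k k n m) ≤ gA * 2 ^ k)
    (capB : ∀ k < N, ∀ i ∈ iv (N - k) t₀, ∀ n ∈ iv (N - k) T, ∀ m ∈ iv (N - k) S,
      ∑ x ∈ iv k i, S2 (Q' x k k n m) ≤ gB * 2 ^ k)
    (packC : ∀ x ∈ iv N t₀, ∑ k ∈ range N, cnt N T S k (qC k (ix k x)) ≤ cC * 4 ^ N)
    (sA : LL N S T t₀ (aff N R c qC fun x k n n' m =>
      S2 (dg (H k (ix k x) n' m) * P' x k k n m * dg (H k (ix k x) n' m))) ≤ aH * 8 ^ N)
    (sB : LL N S T t₀ (aff N R c qC fun x k _ n' m =>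
      S2 (dg (H k (ix k x) n' m) * Q' x k k n' m * dg (H k (ix k x) n' m))) ≤ bH * 8 ^ N) :
    ∑ x ∈ iv N t₀, ∑ k ∈ range N, mC N R S T k (c x k) (qC k (ix k x))
      (fun n n' m => (P' x k k n m * Q' x k k n' m).trace)
      (fun n n' m => (P' x k k n m * Q'' x k k n' m).trace) ≤
      2 * (√√(aH * gA * cC) * √√(bH * gB * cC)) * 8 ^ N := by
  have sH : ∀ {k : ℕ} {M : Matrix (ι k) (ι k) ℝ} (_ : M.PosSemidef) (h : ι k → Prop),
      0 ≤ S2 (dg h * M * dg h) := fun hM h => S2_nonneg (by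
    simp only [Matrix.transpose_mul, dg_tr, psd_tr hM, Matrix.mul_assoc])
  have e0 : ∀ {k : ℕ} {M : Matrix (ι k) (ι k) ℝ} (_ : M.PosSemidef), 0 ≤ S2 M :=
    fun hM => S2_nonneg (psd_tr hM)
  refine (mC_le (t₀ := t₀) (c := c) (q := qC) (f := fun x k n n' m =>
    2 * (√√(S2 (dg (H k (ix k x) n' m) * P' x k k n m * dg (H k (ix k x) n' m)) *
      S2 (P' x k k n m)) * √√(S2 (dg (H k (ix k x) n' m) * Q' x k k n' m *
      dg (H k (ix k x) n' m)) * S2 (Q' x k k n' m))))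
    (t := fun x k n n' m => (P' x k k n m * Q' x k k n' m).trace)
    (t' := fun x k n n' m => (P' x k k n m * Q'' x k k n' m).trace)
    (fun x k n n' m => by positivity) fun x k hk n n' m _ hn' hm hq => ?_).trans ?_
  · rw [mask x k hk n' hn' m hm hq]
    exact mask_charge (pP' x k k n m) (pQ' x k k n' m) _
  have e1 : LL N S T t₀ (aff N R c qC fun x k n n' m =>
    2 * (√√(S2 (dg (H k (ix k x) n' m) * P' x k k n m * dg (H k (ix k x) n' m)) *
      S2 (P' x k k n m)) * √√(S2 (dg (H k (ix k x) n' m) * Q' x k k n' m *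
      dg (H k (ix k x) n' m)) * S2 (Q' x k k n' m)))) =
      2 * LL N S T t₀ (fun x k n m =>
        √√((aff N R c qC fun x k n n' m =>
          S2 (dg (H k (ix k x) n' m) * P' x k k n m * dg (H k (ix k x) n' m))) x k n m *
          (aff N R c qC fun x k n _ m => S2 (P' x k k n m)) x k n m) *
        √√((aff N R c qC fun x k _ n' m =>
          S2 (dg (H k (ix k x) n' m) * Q' x k k n' m * dg (H k (ix k x) n' m))) x k n m *
          (aff N R c qC fun x k _ n' m => S2 (Q' x k k n' m)) x k n m)) := by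
    rw [LL_eq, LL_eq]
    simp only [Finset.mul_sum]
    refine sum_congr rfl fun x _ => sum_congr rfl fun k _ => sum_congr rfl fun m _ =>
      sum_congr rfl fun n _ => ?_
    unfold aff
    split_ifs
    · ring
    · simp
    · simp
  have n1 : ∀ x k n m, 0 ≤ (aff N R c qC fun x k n n' m =>
      S2 (dg (H k (ix k x) n' m) * P' x k k n m * dg (H k (ix k x) n' m))) x k n m :=
    fun x k n m => aff_nonneg (fun x k n n' m => sH (pP' x k k n m) _) x k n m
  have n2 : ∀ x k n m, 0 ≤ (aff N R c qC fun x k n _ m => S2 (P' x k k n m)) x k n m :=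
    fun x k n m => aff_nonneg (fun x k n n' m => e0 (pP' x k k n m)) x k n m
  have n3 : ∀ x k n m, 0 ≤ (aff N R c qC fun x k _ n' m =>
      S2 (dg (H k (ix k x) n' m) * Q' x k k n' m * dg (H k (ix k x) n' m))) x k n m :=
    fun x k n m => aff_nonneg (fun x k n n' m => sH (pQ' x k k n' m) _) x k n m
  have n4 : ∀ x k n m, 0 ≤ (aff N R c qC fun x k _ n' m => S2 (Q' x k k n' m)) x k n m :=
    fun x k n m => aff_nonneg (fun x k n n' m => e0 (pQ' x k k n' m)) x k n m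
  have s2 : LL N S T t₀ (aff N R c qC fun x k n _ m => S2 (P' x k k n m)) ≤
      gA * cC * 8 ^ N := by
    refine LL_cap (F := fun x k n m =>
      if c x k - m - n ∈ iv (N - k) R then S2 (P' x k k (c x k - m - n) m) else 0) hA
      (fun k hk i hi n _ m hm => ?_) packC
    have e : ∑ x ∈ iv k i, (if c x k - m - n ∈ iv (N - k) R then
        S2 (P' x k k (c x k - m - n) m) else 0) =
        ∑ x ∈ iv k i, (if c (2 ^ k * i) k - m - n ∈ iv (N - k) R then
        S2 (P' x k k (c (2 ^ k * i) k - m - n) m) else 0) := by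
      refine sum_congr rfl fun x hx => ?_
      have : ix k (2 ^ k * i) = i := by
        unfold ix
        exact Int.mul_ediv_cancel_left _ (by positivity)
      rw [hcl k x (2 ^ k * i) (by rw [mem_iv.1 hx, this])]
    rw [e]
    split_ifs with h
    · exact capA k hk i hi _ h m hm
    · rw [sum_const_zero]
      positivity
  have s4 : LL N S T t₀ (aff N R c qC fun x k _ n' m => S2 (Q' x k k n' m)) ≤
      gB * cC * 8 ^ N := by
    refine (LL_mono fun x _ k _ n _ m _ => ?_).trans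
      (LL_cap (q := qC) (F := fun x k n m => S2 (Q' x k k n m)) hB capB packC)
    unfold aff
    have := e0 (pQ' x k k n m)
    split_ifs <;> linarith
  rw [e1]
  have h := LL_cs4 n1 n2 n3 n4 (N := N) (S := S) (T := T) (t₀ := t₀)
  have h8 : (0 : ℝ) ≤ 8 ^ N := by positivity
  have r : ∀ {u v a b : ℝ}, 0 ≤ a → 0 ≤ b → 0 ≤ v → u ≤ a * 8 ^ N → v ≤ b * 8 ^ N →
      √√(u * v) ≤ √√(a * b) * √(8 ^ N) := by
    intro u v a b ha hb hv h1 h2
    have h3 : u * v ≤ (a * b) * (8 ^ N) ^ 2 := by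
      refine (mul_le_mul h1 h2 hv (by positivity)).trans (le_of_eq ?_)
      ring
    refine (Real.sqrt_le_sqrt (Real.sqrt_le_sqrt h3)).trans (le_of_eq ?_)
    rw [Real.sqrt_mul (by positivity), Real.sqrt_sq h8, Real.sqrt_mul (Real.sqrt_nonneg _)]
  have r1 := r (by positivity) (by positivity) (LL_nonneg n2) sA s2
  have r2 := r (by positivity) (by positivity) (LL_nonneg n4) sB s4
  have h5 := mul_le_mul r1 r2 (Real.sqrt_nonneg _) (by positivity)
  have h6 : √((8 : ℝ) ^ N) * √(8 ^ N) = 8 ^ N := Real.mul_self_sqrt h8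
  refine (mul_le_mul_of_nonneg_left (h.trans h5) (by norm_num)).trans (le_of_eq ?_)
  rw [show aH * (gA * cC) = aH * gA * cC by ring, show bH * (gB * cC) = bH * gB * cC by ring]
  calc 2 * (√√(aH * gA * cC) * √(8 ^ N) * (√√(bH * gB * cC) * √(8 ^ N)))
      = 2 * (√√(aH * gA * cC) * √√(bH * gB * cC)) * (√(8 ^ N) * √(8 ^ N)) := by ring
    _ = _ := by rw [h6]

end

end Vale.Agent.P141.H571
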