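import Vale.Agent.P141.H576.GlueW
import Vale.Agent.P141.H103.CapA
import Vale.Agent.P141.H571.ChgC

/-!
# E2 with a column mask

`GapFamC` : `H576.GapFam` with one more family `b''` (the function of the time `k + 1`, masked with
the columns removed at the time `k`); `GapFamC.gap`, `GapFamC.w` : the sums over `x₀` of the weighted
gap and of the hypothesis `hw` of `H609.region1_lab`.

* `QK_mask`, `PA_mask` : masking the middle variable in a plane matrix.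
-/

namespace Vale.Agent.P141.H571

open Finset Matrix Vale.Agent.P075 Vale.Agent.P141.PL Vale.Agent.P141.PL.H588
open Vale.Agent.P141.PL.H804 Vale.Agent.P141.H958 Vale.Agent.P141.H338
open Vale.Agent.P141.H103 (gK qK GW GW_gK PA QK QW PA_out QK_out PA_psd QK_psd PQ_mid PA_own QK_own
  QK_congr PA_eq mem_iv_val)
open Vale.Agent.P141.H588G (S2 cnt)
open Vale.Agent.P141.H576 (WZ WZ_sum)

noncomputable section

open scoped Classical

section mask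

variable {κ : Type*} [Fintype κ]

/-- masking the middle variable in a weighted Gram matrix -/
theorem QW_mask {a k : ℕ} (b : ℤ → ℤ → κ → ℝ) (M : ℤ → Matrix κ κ ℝ) (n m : ℤ) (H : ℤ → Prop) :
    dg (fun j : Ix k => H (2 ^ k * m + val k j)) * QW a k b M n m *
      dg (fun j : Ix k => H (2 ^ k * m + val k j)) =
    QW a k (fun x y => if H y then b x y else 0) M n m := by
  ext j j'
  rw [dg_conj]
  unfold QW
  by_cases h1 : H (2 ^ k * m + val k j)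
  · by_cases h2 : H (2 ^ k * m + val k j')
    · simp [h1, h2]
    · simp [h1, h2]
  · simp [h1]

variable [DecidableEq κ]

theorem QK_mask {a k : ℕ} (b : ℤ → ℤ → κ → ℝ) (K : ℤ → ℕ → ℤ → Matrix κ κ ℝ) (n m : ℤ)
    (H : ℤ → Prop) :
    dg (fun j : Ix k => H (2 ^ k * m + val k j)) * QK b K k a n m *
      dg (fun j : Ix k => H (2 ^ k * m + val k j)) =
    QK (fun x y => if H y then b x y else 0) K k a n m :=
  QW_mask b _ n m H

theorem PA_mask {a k : ℕ} (A : ℤ → ℤ → ℝ) (n m : ℤ) (H : ℤ → Prop) :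
    dg (fun j : Ix k => H (2 ^ k * m + val k j)) * PA A k a n m *
      dg (fun j : Ix k => H (2 ^ k * m + val k j)) =
    PA (fun z y => if H y then A z y else 0) k a n m := by
  rw [PA_eq, PA_eq, QK_mask]
  congr 1
  funext z y
  unfold H103.un
  by_cases h : H y
  · simp [h]
  · simp [h]
    rfl

end mask

section cube

variable {κ : Type*} [Fintype κ] [DecidableEq κ] {l : ℝ} {N : ℕ}
  {G K : ℤ → ℕ → ℤ → Matrix κ κ ℝ} {R S T t₀ : ℤ} {c : ℤ → ℕ → ℤ}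
  {A : ℤ → ℕ → ℤ → ℤ → ℝ} {b b' : ℤ → ℕ → ℤ → ℤ → κ → ℝ} {qA qB qC : ℕ → ℤ → ℤ → ℤ → Prop}
  {H : ℕ → ℤ → ℤ → ℤ → ℤ → Prop}

/-- The facts on a pair of families indexed by `x₀` which pay the weighted gap, with a mask:
`A x₀ k`, `b x₀ k` are the functions of the time `k`, `b' x₀ k` is `b x₀ (k + 1)` masked with the
columns `H k` removed at the time `k`; `qC` : the squares with removed columns. -/
structure GapFamC (l : ℝ) (N : ℕ) (G K : ℤ → ℕ → ℤ → Matrix κ κ ℝ) (R S T t₀ : ℤ)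
    (c : ℤ → ℕ → ℤ) (A : ℤ → ℕ → ℤ → ℤ → ℝ) (b b' : ℤ → ℕ → ℤ → ℤ → κ → ℝ)
    (qA qB qC : ℕ → ℤ → ℤ → ℤ → Prop) (H : ℕ → ℤ → ℤ → ℤ → ℤ → Prop)
    (gA gB cP cC aH bH : ℝ) : Prop where
  tr : ∀ x, H420.Tr l N (G x) (K x)
  agA : ∀ x₀ k, k < N → ∀ n ∈ iv (N - k) R, ∀ m ∈ iv (N - k) S, ¬ qA k (ix k x₀) n m →
    PA (A x₀ (k + 1)) k k n m = PA (A x₀ k) k k n m
  agB : ∀ x₀ k, k < N → ∀ n ∈ iv (N - k) T, ∀ m ∈ iv (N - k) S, ¬ qB k (ix k x₀) n m →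
    QK (b' x₀ k) K k k n m = QK (b x₀ k) K k k n m
  msk : ∀ x₀ k, k < N → ∀ n ∈ iv (N - k) T, ∀ m ∈ iv (N - k) S, ∀ x ∈ iv k n, ∀ y ∈ iv k m,
    b' x₀ k x y = if H k (ix k x₀) n m y then 0 else b x₀ (k + 1) x y
  hqC : ∀ k i n m y, H k i n m y → qC k i n m
  zA : ∀ x₀ n m, PA (A x₀ 0) 0 0 n m = 0
  zB : ∀ x₀ n m, QK (b x₀ 0) K 0 0 n m = 0
  gA0 : 0 < gA
  gB0 : 0 < gB
  cP0 : 0 < cP
  cC0 : 0 ≤ cC
  aH0 : 0 ≤ aH
  bH0 : 0 ≤ bH
  capA : ∀ k < N, ∀ i ∈ iv (N - k) t₀, ∀ n ∈ iv (N - k) R, ∀ m ∈ iv (N - k) S,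
    ∑ x₀ ∈ iv k i, S2 (PA (A x₀ (k + 1)) k k n m) ≤ gA * 2 ^ k
  capB : ∀ k < N, ∀ i ∈ iv (N - k) t₀, ∀ n ∈ iv (N - k) T, ∀ m ∈ iv (N - k) S,
    ∑ x₀ ∈ iv k i, S2 (QK (b x₀ (k + 1)) K k k n m) ≤ gB * 2 ^ k
  packA : ∀ x₀ ∈ iv N t₀, ∑ k ∈ range N, cnt N R S k (qA k (ix k x₀)) ≤ cP * 4 ^ N
  packB : ∀ x₀ ∈ iv N t₀, ∑ k ∈ range N, cnt N T S k (qB k (ix k x₀)) ≤ cP * 4 ^ N
  packC : ∀ x₀ ∈ iv N t₀, ∑ k ∈ range N, cnt N T S k (qC k (ix k x₀)) ≤ cC * 4 ^ N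
  sA : LL N S T t₀ (aff N R c qC fun x₀ k n n' m =>
    S2 (PA (fun z y => if H k (ix k x₀) n' m y then A x₀ (k + 1) z y else 0) k k n m)) ≤
      aH * 8 ^ N
  sB : LL N S T t₀ (aff N R c qC fun x₀ k _ n' m =>
    S2 (QK (fun x y => if H k (ix k x₀) n' m y then b x₀ (k + 1) x y else 0) K k k n' m)) ≤
      bH * 8 ^ N

variable {gA gB cP cC aH bH : ℝ}

/-- the masked matrix -/
theorem GapFamC.mk' (f : GapFamC l N G K R S T t₀ c A b b' qA qB qC H gA gB cP cC aH bH)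
    (x₀ : ℤ) {k : ℕ} (hk : k < N) {n m : ℤ} (hn : n ∈ iv (N - k) T) (hm : m ∈ iv (N - k) S) :
    QK (b' x₀ k) K k k n m =
      dg (fun j : Ix k => ¬ H k (ix k x₀) n m (2 ^ k * m + val k j)) *
        QK (b x₀ (k + 1)) K k k n m *
      dg (fun j : Ix k => ¬ H k (ix k x₀) n m (2 ^ k * m + val k j)) := by
  rw [QK_mask (b x₀ (k + 1)) K n m fun y => ¬ H k (ix k x₀) n m y]
  refine QK_congr K fun x hx y hy => ?_
  rw [f.msk x₀ k hk n hn m hm x hx y hy]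
  split_ifs <;> rfl

/-- no mask off the affected squares -/
theorem GapFamC.agC (f : GapFamC l N G K R S T t₀ c A b b' qA qB qC H gA gB cP cC aH bH)
    (x₀ : ℤ) {k : ℕ} (hk : k < N) {n m : ℤ} (hn : n ∈ iv (N - k) T) (hm : m ∈ iv (N - k) S)
    (hq : ¬ qC k (ix k x₀) n m) :
    QK (b x₀ (k + 1)) K k k n m = QK (b' x₀ k) K k k n m := by
  refine QK_congr K fun x hx y hy => ?_
  rw [f.msk x₀ k hk n hn m hm x hx y hy, if_neg fun h => hq (f.hqC _ _ _ _ _ h)]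

/-- **E2** with a mask: the weighted gaps of all scales and all nodes, summed over `x₀`. -/
theorem GapFamC.gap (f : GapFamC l N G K R S T t₀ c A b b' qA qB qC H gA gB cP cC aH bH)
    (hc : ∀ x, Pl (c x)) (hcl : ∀ k x y, ix k x = ix k y → c x k = c y k) :
    ∑ x₀ ∈ iv N t₀, ∑ k ∈ range N, GW N R S T (k + 1) (c x₀ (k + 1))
        (gK (A x₀ (k + 1)) (b x₀ (k + 1)) K (k + 1)) ≤
      146 * √(gA * gB * (cP * (cP + cC))) * 8 ^ N +
        2 * (√√(aH * gA * cC) * √√(bH * gB * cC)) * 8 ^ N := by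
  refine gapSumC hc hcl (P := fun x₀ k => PA (A x₀ k) k) (P' := fun x₀ k => PA (A x₀ (k + 1)) k)
    (Q := fun x₀ k => QK (b x₀ k) K k) (Q' := fun x₀ k => QK (b x₀ (k + 1)) K k)
    (Q'' := fun x₀ k => QK (b' x₀ k) K k)
    (g := fun x₀ k => gK (A x₀ (k + 1)) (b x₀ (k + 1)) K (k + 1))
    (fun _ k _ => PA_out N k _) (fun _ k _ => QK_out N k _ K) (fun _ k _ => PA_out N k _)
    (fun _ k _ => QK_out N k _ K) (fun _ k _ => QK_out N k _ K) (fun _ k a n m => PA_psd _ k a n m)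
    (fun _ k a n m => QK_psd f.tr _ k a n m) (fun _ k a n m => PA_psd _ k a n m)
    (fun _ k a n m => QK_psd f.tr _ k a n m) (fun _ k a n m => QK_psd f.tr _ k a n m) f.agA f.agB
    (fun x₀ k hk n hn m hm hq => f.agC x₀ hk hn hm hq)
    (fun _ _ hk n n' m => PQ_mid f.tr hk _ _ n n' m)
    (fun _ _ hk a _ _ => PA_own hk R S _ a) (fun _ _ hk a _ _ => QK_own f.tr hk T S _ a)
    f.zA f.zB f.gA0 f.gB0 f.cP0 f.cC0 f.capA f.capB
    (fun k hk i hi n hn m hm => (sum_le_sum fun x₀ _ => ?_).trans (f.capB k hk i hi n hn m hm))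
    f.packA f.packB f.packC ?_
  · rw [f.mk' x₀ hk hn hm]
    exact S2_mask_le (QK_psd f.tr _ k k n m) _
  · refine colX hcl (H := fun k i n m j => H k i n m (2 ^ k * m + val k j))
      (fun _ k a n m => PA_psd _ k a n m) (fun _ k a n m => QK_psd f.tr _ k a n m)
      (fun x₀ k hk n hn m hm _ => f.mk' x₀ hk hn hm) f.gA0.le f.gB0.le f.cC0 f.aH0 f.bH0
      f.capA f.capB f.packC ?_ ?_
    · refine le_trans (le_of_eq ?_) f.sA
      congr 2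
      funext x₀ k n n' m
      rw [PA_mask]
    · refine le_trans (le_of_eq ?_) f.sB
      congr 2
      funext x₀ k _ n' m
      rw [QK_mask]

/-- **E2.5** with a mask: the sum over `x₀` of the hypothesis `hw` of `H609.region1_lab`. -/
theorem GapFamC.w {L : ℕ} {e : κ → ℤ} (he : Function.Injective e) (hm : ∀ i, e i ∈ lbs L)
    {R : Pt} (f : GapFamC l N G K R.1 R.2.1 R.2.2 t₀ c A b b' qA qB qC H gA gB cP cC aH bH)
    (hc : ∀ x, Pl (c x))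
    (hcl : ∀ k x y, ix k x = ix k y → c x k = c y k) {s : ℤ → ℕ → Finset Pt}
    (hs : ∀ x₀ ∈ iv N t₀, ∀ k ∈ Icc 1 N, s x₀ k ⊆ bx3 N R k (c x₀ k)) :
    ∑ x₀ ∈ iv N t₀, ∑ k ∈ Icc 1 N, ∑ m ∈ s x₀ k, (4 ^ (k + L) : ℝ)⁻¹ *
        (WZ L l e (A x₀) (b x₀) K (k + L) m * (WZ L l e (A x₀) (b x₀) K (k + L) m)ᵀ).trace ≤
      (4 ^ L : ℝ)⁻¹ * (√l * (146 * √(gA * gB * (cP * (cP + cC))) * 8 ^ N +
        2 * (√√(aH * gA * cC) * √√(bH * gB * cC)) * 8 ^ N)) := by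
  refine (sum_le_sum fun x₀ hx => WZ_sum f.tr he hm (hs x₀ hx)).trans ?_
  rw [← mul_sum, mul_assoc]
  exact mul_le_mul_of_nonneg_left (mul_le_mul_of_nonneg_left (f.gap hc hcl)
    (Real.sqrt_nonneg _)) (by positivity)

end cube

end

end Vale.Agent.P141.H571
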