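import Vale.Agent.P141.H585.MainT
import Vale.Agent.P141.H490.Draft
import Vale.Agent.P141.H501.OfCE
import Vale.Agent.P141.H437.CenTop
import Vale.Agent.P141.H639.CenSt
import Vale.Agent.P141.H650.Spec.CE1N

/-!
# P141: the final statement from CE

The whole chain above CE, everything else proved:
`H650.CE1n → H650.CE1St → H650.CenSt → H501.CEOut → StepIn → H490.FinalStmt`.

* `final_of_ceOut`: from the static payments with gain;
* `final_of_ce1n`: from the price of a normalised centre atom on one box.
-/

namespace Vale.Agent.P141.H571

open Vale.Agent.P141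

theorem final_of_ceOut (h : H501.CEOut) : H490.FinalStmt :=
  H490.final_of_steps (PL.H855.stepHyp_of_stepIn (H501.stepIn_of_ce_end h H585M.endStmT))

theorem final_of_ce1n (h : H650.CE1n) : H490.FinalStmt :=
  final_of_ceOut (H437.ceOut_of_cen (H639.cenSt_of_ce1 (H650.ce1St_of_n h)))

end Vale.Agent.P141.H571
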